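import Vale.Agent.P371.Full.Assembly

/-! # The sharp Lieb–Thirring constant on the line for `1/2 < γ < 3/2`, every matrix size -/

namespace Vale.Agent.Results.P371.SharpAllGamma

open MeasureTheory Vale.Agent.P371.LT Vale.Agent.P371.Full

theorem result :
    ∀ g : ℝ, 1 / 2 < g → g < 3 / 2 → ∀ m : ℕ, 1 ≤ m →
      IsGreatest
        {r : ℝ | ∃ W : ℝ → Matrix (Fin m) (Fin m) ℂ, IsPotentialFor g W ∧
          0 < ∫ x, trPow (g + 1 / 2) (W x) ∧
          ∃ (N : ℕ) (E : Fin N → ℝ) (ψ ψ' : Fin N → ℝ → Fin m → ℂ), IsBoundStates W E ψ ψ' ∧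
            r = (∑ n, |E n| ^ g) / ∫ x, trPow (g + 1 / 2) (W x)}
        (2 * ((g - 1 / 2) / (g + 1 / 2)) ^ (g - 1 / 2) *
          (Real.Gamma (g + 1) / (2 * Real.sqrt Real.pi * Real.Gamma (g + 3 / 2)))) := by
  intro g hg hg' m hm
  show IsGreatest _ (oneState g)
  refine ⟨?_, ?_⟩
  · obtain ⟨W, E, ψ, ψ', hW, hb, hpos, heq⟩ := soliton_attains hg hm
    exact ⟨W, hW, hpos, 1, E, ψ, ψ', hb, by rw [eq_div_iff hpos.ne', heq]⟩
  · rintro r ⟨W, hW, hpos, N, E, ψ, ψ', hb, rfl⟩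
    rw [div_le_iff₀ hpos]
    exact sharp_upper hg hg' hW hb

end Vale.Agent.Results.P371.SharpAllGamma
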